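import Vale.Agent.P141.H460.AffFam
import Vale.Agent.P141.H795.KFact

/-!
# P141, line (A): the births of the functions in the Abel line with the kernels `kp`

* `gpack_near` : local packing of the nodes over affected squares on the near planes `o`,
  `-6 ≤ o ≤ 10`;
* `In_near` : the form of a kernel of scale `k` as a sum over the near cells of `x2`;
* `fam_le_k`, `fam_births_k` : the third term of `H795.abel_grid` for the families of `H677.GA`;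
* `KK_mean` : the kernel is a mean of multipliers which depend on the three shifted cells;
* `wG_cell`, `wG_aff` : the energy of the vectors from the cap of `A` and the mass of `b`;
* `births_kp` : all together.
-/

namespace Vale.Agent.P141.H744

open Finset Matrix
open Vale.Agent.P141.PL (Pt iv ix cb cx mem_iv mem_cb card_iv card_cb ix_ix)
open Vale.Agent.P141.H352 (In)
open Vale.Agent.P141.H460

noncomputable section

open scoped Classical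

/-! ### Packing on the near planes -/

theorem card17 : (Icc (-8 : ℤ) 8).card = 17 := by decide

/-- the near cells lie over seventeen cells -/
theorem near_le {o : ℤ} (ho : -6 ≤ o ∧ o ≤ 10) {d : ℕ} {M0 M1 M3 m0 b : ℤ} (h0 : m0 ∈ iv d M0)
    (hb : b ∈ iv d M3) (φ : ℤ → ℝ) (hφ : ∀ r, 0 ≤ φ r) :
    ∑ a ∈ iv d M1, φ (o - 2 - m0 - a - b) ≤
      ∑ i ∈ Icc (-8 : ℤ) 8, ∑ r ∈ iv d (-(M0 + M1 + M3) + i), φ r := by
  have h1 : ∑ a ∈ iv d M1, φ (o - 2 - m0 - a - b) =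
      ∑ r ∈ (iv d M1).image (fun a => o - 2 - m0 - a - b), φ r := by
    rw [sum_image]
    intro a _ a' _ h
    simp only at h
    omega
  have h2 : ∑ i ∈ Icc (-8 : ℤ) 8, ∑ r ∈ iv d (-(M0 + M1 + M3) + i), φ r =
      ∑ r ∈ (Icc (-8 : ℤ) 8).biUnion (fun i => iv d (-(M0 + M1 + M3) + i)), φ r := by
    rw [sum_biUnion]
    intro i _ j _ hij
    rw [Function.onFun, disjoint_left]
    intro r hr hr'
    rw [mem_iv] at hr hr'
    apply hij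
    have : -(M0 + M1 + M3) + i = -(M0 + M1 + M3) + j := hr.symm.trans hr'
    omega
  rw [h1, h2]
  refine sum_le_sum_of_subset_of_nonneg ?_ fun r _ _ => hφ r
  intro r hr
  obtain ⟨a, ha, rfl⟩ := mem_image.1 hr
  rw [mem_biUnion]
  have hq : o - 2 - m0 - a - b ∈ iv d (ix d (o - 2 - m0 - a - b)) := mem_iv.2 rfl
  generalize hQ : ix d (o - 2 - m0 - a - b) = Q at hq
  have hD1 : (1 : ℤ) ≤ 2 ^ d := one_le_pow₀ (by norm_num)
  refine ⟨Q + (M0 + M1 + M3), ?_, ?_⟩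
  · unfold PL.iv at h0 hb ha hq
    rw [mem_Ico] at h0 hb ha hq
    rw [mem_Icc]
    generalize (2 : ℤ) ^ d = D at *
    constructor
    · by_contra hc
      have hc' : Q + (M0 + M1 + M3) ≤ -9 := by omega
      nlinarith
    · by_contra hc
      have hc' : 9 ≤ Q + (M0 + M1 + M3) := by omega
      nlinarith
  · rw [mem_iv, hQ]
    ring

theorem packN1 {n : ℕ} {Q : ℕ → Pt → Prop} {cP : ℝ} (hQ : QPack n Q cP) {o : ℤ}
    (ho : -6 ≤ o ∧ o ≤ 10) {k : ℕ} (hk : k ≤ n) (m : Pt) :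
    ∑ y ∈ cb k m, ∑ j ∈ range (k + 1), (if nA1 o Q j (cx j y) then (1 : ℝ) else 0) ≤
      17 * cP * 8 ^ k := by
  have key : ∀ y0 ∈ iv k m.1, ∑ y1 ∈ iv k m.2.1, ∑ y3 ∈ iv k m.2.2, ∑ j ∈ range (k + 1),
      (if nA1 o Q j (cx j (y0, y1, y3)) then (1 : ℝ) else 0) ≤ 17 * cP * 4 ^ k := by
    intro y0 hy0
    have e1 : ∑ y1 ∈ iv k m.2.1, ∑ y3 ∈ iv k m.2.2, ∑ j ∈ range (k + 1),
        (if nA1 o Q j (cx j (y0, y1, y3)) then (1 : ℝ) else 0) =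
        ∑ j ∈ range (k + 1), ∑ b ∈ iv (k - j) m.2.2, ∑ a ∈ iv (k - j) m.2.1,
          (if Q j (ix j y0, o - 2 - ix j y0 - a - b, b) then (4 : ℝ) ^ j else 0) := by
      rw [sum_congr rfl fun y1 _ => sum_comm, sum_comm]
      refine sum_congr rfl fun j hj => ?_
      have hj' : j ≤ k := by rw [mem_range] at hj; omega
      have e2 : ∀ y1 ∈ iv k m.2.1, ∑ y3 ∈ iv k m.2.2,
          (if nA1 o Q j (cx j (y0, y1, y3)) then (1 : ℝ) else 0) =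
          2 ^ j * ∑ b ∈ iv (k - j) m.2.2,
            (if Q j (ix j y0, o - 2 - ix j y0 - ix j y1 - b, b) then (1 : ℝ) else 0) := by
        intro y1 _
        rw [← iv_const hj' m.2.2
          (fun b => if Q j (ix j y0, o - 2 - ix j y0 - ix j y1 - b, b) then (1 : ℝ) else 0)]
        rfl
      rw [sum_congr rfl e2, iv_const hj' m.2.1 (fun a => 2 ^ j * ∑ b ∈ iv (k - j) m.2.2,
        (if Q j (ix j y0, o - 2 - ix j y0 - a - b, b) then (1 : ℝ) else 0)), mul_sum, sum_comm,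
        sum_comm]
      simp only [mul_sum]
      rw [sum_comm]
      refine sum_congr rfl fun b _ => sum_congr rfl fun a _ => ?_
      rw [show (4 : ℝ) ^ j = 2 ^ j * 2 ^ j by rw [← mul_pow]; norm_num]
      split_ifs <;> ring
    rw [e1]
    have h1 : ∀ j ∈ range (k + 1), ∑ b ∈ iv (k - j) m.2.2, ∑ a ∈ iv (k - j) m.2.1,
        (if Q j (ix j y0, o - 2 - ix j y0 - a - b, b) then (4 : ℝ) ^ j else 0) ≤
        ∑ i ∈ Icc (-8 : ℤ) 8, ∑ r ∈ iv (k - j) (-(m.1 + m.2.1 + m.2.2) + i),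
          ∑ b ∈ iv (k - j) m.2.2, (if Q j (ix j y0, r, b) then (4 : ℝ) ^ j else 0) := by
      intro j hj
      have hj' : j ≤ k := by rw [mem_range] at hj; omega
      refine (sum_le_sum fun b hb => near_le ho (ix_mem hj' hy0) hb
        (fun r => if Q j (ix j y0, r, b) then (4 : ℝ) ^ j else 0)
        (fun r => by split_ifs <;> positivity)).trans (le_of_eq ?_)
      rw [sum_comm]
      exact sum_congr rfl fun i _ => sum_comm
    refine (sum_le_sum h1).trans ?_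
    rw [sum_comm]
    refine (sum_le_sum fun i _ => hQ y0 k hk _ _).trans (le_of_eq ?_)
    rw [sum_const, card17, nsmul_eq_mul]
    push_cast
    ring
  unfold PL.cb
  rw [sum_product]
  simp only [sum_product]
  refine (sum_le_sum key).trans (le_of_eq ?_)
  rw [sum_const, card_iv, nsmul_eq_mul]
  push_cast
  rw [show (8 : ℝ) ^ k = 2 ^ k * 4 ^ k by rw [← mul_pow]; norm_num]
  ring

theorem packN3 {n : ℕ} {Q : ℕ → Pt → Prop} {cP : ℝ} (hQ : QPack n Q cP) {o : ℤ}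
    (ho : -6 ≤ o ∧ o ≤ 10) {k : ℕ} (hk : k ≤ n) (m : Pt) :
    ∑ y ∈ cb k m, ∑ j ∈ range (k + 1), (if nA3 o Q j (cx j y) then (1 : ℝ) else 0) ≤
      17 * cP * 8 ^ k := by
  have key : ∀ y0 ∈ iv k m.1, ∑ y1 ∈ iv k m.2.1, ∑ y3 ∈ iv k m.2.2, ∑ j ∈ range (k + 1),
      (if nA3 o Q j (cx j (y0, y1, y3)) then (1 : ℝ) else 0) ≤ 17 * cP * 4 ^ k := by
    intro y0 hy0
    have e1 : ∑ y1 ∈ iv k m.2.1, ∑ y3 ∈ iv k m.2.2, ∑ j ∈ range (k + 1),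
        (if nA3 o Q j (cx j (y0, y1, y3)) then (1 : ℝ) else 0) =
        ∑ j ∈ range (k + 1), ∑ a ∈ iv (k - j) m.2.1, ∑ b ∈ iv (k - j) m.2.2,
          (if Q j (ix j y0, a, o - 2 - ix j y0 - b - a) then (4 : ℝ) ^ j else 0) := by
      rw [sum_congr rfl fun y1 _ => sum_comm, sum_comm]
      refine sum_congr rfl fun j hj => ?_
      have hj' : j ≤ k := by rw [mem_range] at hj; omega
      have e2 : ∀ y1 ∈ iv k m.2.1, ∑ y3 ∈ iv k m.2.2,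
          (if nA3 o Q j (cx j (y0, y1, y3)) then (1 : ℝ) else 0) =
          2 ^ j * ∑ b ∈ iv (k - j) m.2.2,
            (if Q j (ix j y0, ix j y1, o - 2 - ix j y0 - ix j y1 - b) then (1 : ℝ) else 0) := by
        intro y1 _
        rw [← iv_const hj' m.2.2
          (fun b => if Q j (ix j y0, ix j y1, o - 2 - ix j y0 - ix j y1 - b)
            then (1 : ℝ) else 0)]
        rfl
      rw [sum_congr rfl e2, iv_const hj' m.2.1 (fun a => 2 ^ j * ∑ b ∈ iv (k - j) m.2.2,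
        (if Q j (ix j y0, a, o - 2 - ix j y0 - a - b) then (1 : ℝ) else 0)), mul_sum]
      simp only [mul_sum]
      refine sum_congr rfl fun a _ => sum_congr rfl fun b _ => ?_
      rw [show (4 : ℝ) ^ j = 2 ^ j * 2 ^ j by rw [← mul_pow]; norm_num,
        show o - 2 - ix j y0 - b - a = o - 2 - ix j y0 - a - b by ring]
      split_ifs <;> ring
    rw [e1]
    have h1 : ∀ j ∈ range (k + 1), ∑ a ∈ iv (k - j) m.2.1, ∑ b ∈ iv (k - j) m.2.2,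
        (if Q j (ix j y0, a, o - 2 - ix j y0 - b - a) then (4 : ℝ) ^ j else 0) ≤
        ∑ i ∈ Icc (-8 : ℤ) 8, ∑ a ∈ iv (k - j) m.2.1,
          ∑ r ∈ iv (k - j) (-(m.1 + m.2.2 + m.2.1) + i),
            (if Q j (ix j y0, a, r) then (4 : ℝ) ^ j else 0) := by
      intro j hj
      have hj' : j ≤ k := by rw [mem_range] at hj; omega
      refine (sum_le_sum fun a ha => near_le ho (ix_mem hj' hy0) ha
        (fun r => if Q j (ix j y0, a, r) then (4 : ℝ) ^ j else 0)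
        (fun r => by split_ifs <;> positivity)).trans (le_of_eq ?_)
      rw [sum_comm]
    refine (sum_le_sum h1).trans ?_
    rw [sum_comm]
    refine (sum_le_sum fun i _ => hQ y0 k hk _ _).trans (le_of_eq ?_)
    rw [sum_const, card17, nsmul_eq_mul]
    push_cast
    ring
  unfold PL.cb
  rw [sum_product]
  simp only [sum_product]
  refine (sum_le_sum key).trans (le_of_eq ?_)
  rw [sum_const, card_iv, nsmul_eq_mul]
  push_cast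
  rw [show (8 : ℝ) ^ k = 2 ^ k * 4 ^ k by rw [← mul_pow]; norm_num]
  ring

theorem gpack_near {n : ℕ} {Q1 Q2 Q3 : ℕ → Pt → Prop} {c1 c2 c3 : ℝ} (h1 : QPack n Q1 c1)
    (h2 : QPack n Q2 c2) (h3 : QPack n Q3 c3) {o : ℤ} (ho : -6 ≤ o ∧ o ≤ 10) {K : ℕ}
    (hK : K ≤ n) : GPack (nAff o Q1 Q2 Q3) K (17 * c1 + (c2 + 17 * c3)) := by
  have g1 : GPack (nA1 o Q1) K (17 * c1) := fun k hk m => packN1 h1 ho (hk.trans hK) m
  have g2 : GPack Q2 K c2 := fun k hk m => pack2 h2 (hk.trans hK) m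
  have g3 : GPack (nA3 o Q3) K (17 * c3) := fun k hk m => packN3 h3 ho (hk.trans hK) m
  exact (g1.or (g2.or g3)).mono fun _ _ h => h

/-! ### The form of a kernel -/

/-- the near cells of `x2` carry the kernel -/
theorem near_cell {k : ℕ} {κ : ℤ → ℝ} (hκ : ∀ z, κ z ≠ 0 → -3 * 2 ^ k ≤ z ∧ z ≤ 3 * 2 ^ k)
    {c a0 : ℤ} (hc : -3 ≤ ix k c + a0 ∧ ix k c + a0 ≤ 3) {x1 x2 x3 : ℤ}
    (h : ¬ (-6 ≤ ix k x2 + 2 + a0 + ix k x1 + ix k x3 ∧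
      ix k x2 + 2 + a0 + ix k x1 + ix k x3 ≤ 10)) : κ (c - x1 - x2 - x3) = 0 := by
  by_contra hne
  apply h
  have hz := hκ _ hne
  have m0 : c ∈ iv k (ix k c) := mem_iv.2 rfl
  have m1 : x1 ∈ iv k (ix k x1) := mem_iv.2 rfl
  have m2 : x2 ∈ iv k (ix k x2) := mem_iv.2 rfl
  have m3 : x3 ∈ iv k (ix k x3) := mem_iv.2 rfl
  unfold PL.iv at m0 m1 m2 m3
  rw [mem_Ico] at m0 m1 m2 m3
  have hD1 : (1 : ℤ) ≤ 2 ^ k := one_le_pow₀ (by norm_num)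
  generalize ix k c = C at *
  generalize ix k x1 = X1 at *
  generalize ix k x2 = X2 at *
  generalize ix k x3 = X3 at *
  generalize (2 : ℤ) ^ k = D at *
  constructor
  · by_contra hcc
    have hc' : X2 + a0 + X1 + X3 ≤ -9 := by omega
    have h1 : X2 + X1 + X3 - C ≤ -6 := by omega
    have h2 : D * (X2 + X1 + X3 - C) ≤ D * (-6) := mul_le_mul_of_nonneg_left h1 (by linarith)
    nlinarith
  · by_contra hcc
    have hc' : 9 ≤ X2 + a0 + X1 + X3 := by omega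
    have h1 : 6 ≤ X2 + X1 + X3 - C := by omega
    have h2 : D * 6 ≤ D * (X2 + X1 + X3 - C) := mul_le_mul_of_nonneg_left h1 (by linarith)
    nlinarith

/-- **The form of a kernel of scale `k`.** -/
theorem In_near {k K : ℕ} (hk : k ≤ K) (M : Pt) {κ : ℤ → ℝ}
    (hκ : ∀ z, κ z ≠ 0 → -3 * 2 ^ k ≤ z ∧ z ≤ 3 * 2 ^ k)
    {c a0 : ℤ} (hc : -3 ≤ ix k c + a0 ∧ ix k c + a0 ≤ 3) (f : Pt → ℝ) :
    In K M (fun x => κ (c - x.1 - x.2.1 - x.2.2)) f =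
      ∑ x1 ∈ iv K M.1, ∑ x3 ∈ iv K M.2.2, ∑ o ∈ Icc (-6 : ℤ) 10,
      if o - 2 - a0 - ix k x1 - ix k x3 ∈ iv (K - k) M.2.1 then
        ∑ x2 ∈ iv k (o - 2 - a0 - ix k x1 - ix k x3), κ (c - x1 - x2 - x3) * f (x1, x2, x3)
      else 0 := by
  unfold H352.In PL.cb
  rw [sum_product]
  simp only [sum_product]
  refine sum_congr rfl fun x1 _ => ?_
  rw [sum_comm]
  refine sum_congr rfl fun x3 _ => ?_
  rw [iv_part hk M.2.1 fun x2 => κ (c - x1 - x2 - x3) * f (x1, x2, x3)]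
  rw [← sum_filter]
  rw [← sum_filter_add_sum_filter_not (iv (K - k) M.2.1)
    (fun n => -6 ≤ n + 2 + a0 + ix k x1 + ix k x3 ∧ n + 2 + a0 + ix k x1 + ix k x3 ≤ 10)]
  rw [sum_eq_zero (s := (iv (K - k) M.2.1).filter fun n =>
    ¬ (-6 ≤ n + 2 + a0 + ix k x1 + ix k x3 ∧ n + 2 + a0 + ix k x1 + ix k x3 ≤ 10)) fun n hn => ?_,
    add_zero]
  · refine sum_nbij' (fun n => n + 2 + a0 + ix k x1 + ix k x3)
      (fun o => o - 2 - a0 - ix k x1 - ix k x3) (fun n hn => ?_) (fun o ho => ?_)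
      (fun n _ => by ring) (fun o _ => by ring) (fun n _ => ?_)
    · rw [mem_filter] at hn ⊢
      rw [mem_Icc]
      refine ⟨hn.2, ?_⟩
      have : n + 2 + a0 + ix k x1 + ix k x3 - 2 - a0 - ix k x1 - ix k x3 = n := by ring
      rw [this]
      exact hn.1
    · rw [mem_filter, mem_Icc] at ho
      rw [mem_filter]
      refine ⟨ho.2, ?_⟩
      have : o - 2 - a0 - ix k x1 - ix k x3 + 2 + a0 + ix k x1 + ix k x3 = o := by ring
      rw [this]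
      exact ho.1
    · have : n + 2 + a0 + ix k x1 + ix k x3 - 2 - a0 - ix k x1 - ix k x3 = n := by ring
      rw [this]
  · rw [mem_filter] at hn
    refine sum_eq_zero fun x2 hx2 => ?_
    rw [mem_iv] at hx2
    rw [near_cell hκ hc (by rw [hx2]; exact hn.2), zero_mul]

/-! ### The births -/

section Births

variable {κ : Type*} [Fintype κ]

/-- the vector of a node point, kernel of the base point `c0` -/
def wG (c0 : ℤ → ℤ) (A : ℤ → ℕ → ℤ → ℤ → ℝ) (b : ℤ → ℕ → ℤ → ℤ → κ → ℝ) (o : ℤ) (b' k : ℕ)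
    (x : Pt) : κ → ℝ :=
  ∑ y ∈ iv k (tc o k x), (H795.KK k (c0 x.1 - x.2.1 - y - x.2.2) * A x.1 (k + b') x.2.2 y) •
    b x.1 (k + b') x.2.1 y

theorem wG_cell_eq (c0 : ℤ → ℤ) (A : ℤ → ℕ → ℤ → ℤ → ℝ) (b C : ℤ → ℕ → ℤ → ℤ → κ → ℝ)
    (R : ℤ → ℕ → ℤ → ℤ → Matrix κ κ ℝ) (o x0 x1 x3 : ℤ) (k b' : ℕ) :
    ∑ x2 ∈ iv k (o - 2 - ix k x0 - ix k x1 - ix k x3),
      H795.KK k (c0 x0 - x1 - x2 - x3) *
        H677.GA (A x0) (b x0) (C x0) (R x0) k (k + b') (x1, x2, x3) =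
      wG c0 A b o b' k (x0, x1, x3) ⬝ᵥ R x0 k x3 x1 *ᵥ C x0 (k + b') x3 x1 := by
  unfold H677.GA wG tc
  simp only
  rw [sum_dotProduct]
  refine sum_congr rfl fun x2 _ => ?_
  rw [smul_dotProduct, smul_eq_mul]
  ring

/-- **The births of the functions with the kernels, families.** -/
theorem fam_le_k {N : ℕ} (M : Pt) (t : ℤ) {c0 : ℤ → ℤ}
    (hc : ∀ k < N, ∀ x0, -3 ≤ ix k (c0 x0) + ix k x0 ∧ ix k (c0 x0) + ix k x0 ≤ 3)
    {Af : ℤ → ℕ → Pt → Prop} {A : ℤ → ℕ → ℤ → ℤ → ℝ} {b C : ℤ → ℕ → ℤ → ℤ → κ → ℝ}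
    (R : ℤ → ℕ → ℤ → ℤ → Matrix κ κ ℝ) (h : ∀ o ∈ Icc (-6 : ℤ) 10, FAgr o N (Af o) A b C) :
    ∑ x0 ∈ iv N t, ∑ k ∈ range N, |In N M (H795.kp (c0 x0) k) (fun y =>
        H677.GA (A x0) (b x0) (C x0) (R x0) k k y -
          H677.GA (A x0) (b x0) (C x0) (R x0) k (k + 1) y)| ≤
      ∑ o ∈ Icc (-6 : ℤ) 10, ∑ b' ∈ range 2, ∑ k ∈ range (N + 1), ∑ x ∈ cb N (t, M.1, M.2.2),
        (if fAR o N M.2.1 (Af o) k (cx k x) then
          |wG c0 A b o b' k x ⬝ᵥ R x.1 k x.2.2 x.2.1 *ᵥ C x.1 (k + b') x.2.2 x.2.1| else 0) := by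
  have hnn : ∀ (o : ℤ) (b' k : ℕ) (x : Pt), (0 : ℝ) ≤ (if fAR o N M.2.1 (Af o) k (cx k x) then
      |wG c0 A b o b' k x ⬝ᵥ R x.1 k x.2.2 x.2.1 *ᵥ C x.1 (k + b') x.2.2 x.2.1| else 0) := by
    intro o b' k x
    split_ifs
    · exact abs_nonneg _
    · exact le_rfl
  have hpt : ∀ k ∈ range N, ∀ x0 ∈ iv N t, |In N M (H795.kp (c0 x0) k) (fun y =>
        H677.GA (A x0) (b x0) (C x0) (R x0) k k y -
          H677.GA (A x0) (b x0) (C x0) (R x0) k (k + 1) y)| ≤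
      ∑ x1 ∈ iv N M.1, ∑ x3 ∈ iv N M.2.2, ∑ o ∈ Icc (-6 : ℤ) 10, ∑ b' ∈ range 2,
        (if fAR o N M.2.1 (Af o) k (cx k (x0, x1, x3)) then
          |wG c0 A b o b' k (x0, x1, x3) ⬝ᵥ R x0 k x3 x1 *ᵥ C x0 (k + b') x3 x1| else 0) := by
    intro k hk x0 _
    have hk' := mem_range.1 hk
    have hκ : ∀ z, H795.KK k z ≠ 0 → -3 * 2 ^ k ≤ z ∧ z ≤ 3 * 2 ^ k := fun z hz => by
      have := H795.KK_supp hz
      exact ⟨this.1, by linarith [this.2]⟩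
    have e0 := In_near hk'.le M hκ (hc k hk' x0) (fun y =>
        H677.GA (A x0) (b x0) (C x0) (R x0) k k y -
          H677.GA (A x0) (b x0) (C x0) (R x0) k (k + 1) y)
    change |In N M (fun x => H795.KK k (c0 x0 - x.1 - x.2.1 - x.2.2)) _| ≤ _
    rw [e0]
    refine (abs_sum_le_sum_abs _ _).trans (sum_le_sum fun x1 _ => ?_)
    refine (abs_sum_le_sum_abs _ _).trans (sum_le_sum fun x3 _ => ?_)
    refine (abs_sum_le_sum_abs _ _).trans (sum_le_sum fun o ho => ?_)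
    by_cases hr : o - 2 - ix k x0 - ix k x1 - ix k x3 ∈ iv (N - k) M.2.1
    · rw [if_pos hr]
      by_cases ha : Af o k (cx k (x0, x1, x3))
      · have hA : fAR o N M.2.1 (Af o) k (cx k (x0, x1, x3)) := ⟨ha, hr, hk'⟩
        simp only [if_pos hA, mul_sub]
        rw [sum_sub_distrib, wG_cell_eq c0 A b C R o x0 x1 x3 k 1]
        have e1 := wG_cell_eq c0 A b C R o x0 x1 x3 k 0
        rw [Nat.add_zero] at e1
        rw [e1, sum_range_succ, sum_range_succ, sum_range_zero, zero_add, Nat.add_zero]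
        exact abs_sub _ _
      · have hz : ∑ x2 ∈ iv k (o - 2 - ix k x0 - ix k x1 - ix k x3),
            H795.KK k (c0 x0 - x1 - x2 - x3) *
            (H677.GA (A x0) (b x0) (C x0) (R x0) k k (x1, x2, x3) -
              H677.GA (A x0) (b x0) (C x0) (R x0) k (k + 1) (x1, x2, x3)) = 0 := by
          refine sum_eq_zero fun x2 hx2 => ?_
          obtain ⟨a1, a2, a3⟩ := h o ho k hk' (x0, x1, x3) ha
          unfold H677.GA
          simp only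
          have e1 := a1 x3 (PL.self_mem_iv k x3) x2 hx2
          have e2 := a2 x1 (PL.self_mem_iv k x1) x2 hx2
          have e3 := a3 x3 (PL.self_mem_iv k x3) x1 (PL.self_mem_iv k x1)
          simp only at e1 e2 e3
          rw [e1, e2, e3, sub_self, mul_zero]
        rw [hz, abs_zero]
        exact sum_nonneg fun b' _ => hnn o b' k (x0, x1, x3)
    · rw [if_neg hr, abs_zero]
      exact sum_nonneg fun b' _ => hnn o b' k (x0, x1, x3)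
  refine (sum_le_sum fun x0 hx0 => sum_le_sum fun k hk => hpt k hk x0 hx0).trans ?_
  have e3 : ∀ o ∈ Icc (-6 : ℤ) 10, ∀ b' ∈ range 2,
      ∑ x0 ∈ iv N t, ∑ k ∈ range N, ∑ x1 ∈ iv N M.1, ∑ x3 ∈ iv N M.2.2,
      (if fAR o N M.2.1 (Af o) k (cx k (x0, x1, x3)) then
          |wG c0 A b o b' k (x0, x1, x3) ⬝ᵥ R x0 k x3 x1 *ᵥ C x0 (k + b') x3 x1| else 0) ≤
      ∑ k ∈ range (N + 1), ∑ x ∈ cb N (t, M.1, M.2.2),
        (if fAR o N M.2.1 (Af o) k (cx k x) then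
          |wG c0 A b o b' k x ⬝ᵥ R x.1 k x.2.2 x.2.1 *ᵥ C x.1 (k + b') x.2.2 x.2.1| else 0) := by
    intro o _ b' _
    rw [sum_comm]
    refine le_trans (le_of_eq ?_) (sum_le_sum_of_subset_of_nonneg
      (range_subset_range.2 (Nat.le_succ N)) fun k _ _ => sum_nonneg fun x _ => hnn o b' k x)
    refine sum_congr rfl fun k _ => ?_
    unfold PL.cb
    rw [sum_product]
    simp only [sum_product]
  refine le_trans (le_of_eq ?_) (sum_le_sum fun o ho => sum_le_sum (e3 o ho))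
  have s1 : ∀ f : ℤ → ℕ → ℤ → ℤ → ℤ → ℕ → ℝ,
      ∑ x0 ∈ iv N t, ∑ k ∈ range N, ∑ x1 ∈ iv N M.1, ∑ x3 ∈ iv N M.2.2,
        ∑ o ∈ Icc (-6 : ℤ) 10, ∑ b' ∈ range 2, f x0 k x1 x3 o b' =
      ∑ o ∈ Icc (-6 : ℤ) 10, ∑ b' ∈ range 2, ∑ x0 ∈ iv N t, ∑ k ∈ range N, ∑ x1 ∈ iv N M.1,
        ∑ x3 ∈ iv N M.2.2, f x0 k x1 x3 o b' := by
    intro f
    simp only [← sum_product']
    refine sum_nbij' (fun q => (q.2.2.2.2.1, q.2.2.2.2.2, q.1, q.2.1, q.2.2.1, q.2.2.2.1))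
      (fun q => (q.2.2.1, q.2.2.2.1, q.2.2.2.2.1, q.2.2.2.2.2, q.1, q.2.1)) ?_ ?_ ?_ ?_ ?_
    · intro q hq
      simp only [mem_product] at hq ⊢
      tauto
    · intro q hq
      simp only [mem_product] at hq ⊢
      tauto
    · exact fun q _ => rfl
    · exact fun q _ => rfl
    · exact fun q _ => rfl
  exact s1 fun x0 k x1 x3 o b' => (if fAR o N M.2.1 (Af o) k (cx k (x0, x1, x3)) then
          |wG c0 A b o b' k (x0, x1, x3) ⬝ᵥ R x0 k x3 x1 *ᵥ C x0 (k + b') x3 x1| else 0)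

/-- **The births after Cauchy-Schwarz.** -/
theorem fam_births_k {N : ℕ} (M : Pt) (t : ℤ) {c0 : ℤ → ℤ}
    (hc : ∀ k < N, ∀ x0, -3 ≤ ix k (c0 x0) + ix k x0 ∧ ix k (c0 x0) + ix k x0 ≤ 3)
    {Af : ℤ → ℕ → Pt → Prop} {A : ℤ → ℕ → ℤ → ℤ → ℝ} {b C : ℤ → ℕ → ℤ → ℤ → κ → ℝ}
    (R : ℤ → ℕ → ℤ → ℤ → Matrix κ κ ℝ) (h : ∀ o ∈ Icc (-6 : ℤ) 10, FAgr o N (Af o) A b C)
    {EV Ew : ℝ}
    (hEV : ∀ o ∈ Icc (-6 : ℤ) 10, ∀ b' ∈ range 2, ∑ k ∈ range (N + 1),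
      ∑ x ∈ cb N (t, M.1, M.2.2), (if fAR o N M.2.1 (Af o) k (cx k x) then
        (R x.1 k x.2.2 x.2.1 *ᵥ C x.1 (k + b') x.2.2 x.2.1) ⬝ᵥ
        (R x.1 k x.2.2 x.2.1 *ᵥ C x.1 (k + b') x.2.2 x.2.1) else 0) ≤ EV)
    (hEw : ∀ o ∈ Icc (-6 : ℤ) 10, ∀ b' ∈ range 2, ∑ k ∈ range (N + 1),
      ∑ x ∈ cb N (t, M.1, M.2.2), (if fAR o N M.2.1 (Af o) k (cx k x) then
        wG c0 A b o b' k x ⬝ᵥ wG c0 A b o b' k x else 0) ≤ Ew) :
    ∑ x0 ∈ iv N t, ∑ k ∈ range N, |In N M (H795.kp (c0 x0) k) (fun y =>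
        H677.GA (A x0) (b x0) (C x0) (R x0) k k y -
          H677.GA (A x0) (b x0) (C x0) (R x0) k (k + 1) y)| ≤ 34 * (√EV * √Ew) := by
  refine (fam_le_k M t hc R h).trans ?_
  have h1 : ∀ o ∈ Icc (-6 : ℤ) 10, ∀ b' ∈ range 2, ∑ k ∈ range (N + 1),
      ∑ x ∈ cb N (t, M.1, M.2.2), (if fAR o N M.2.1 (Af o) k (cx k x) then
          |wG c0 A b o b' k x ⬝ᵥ R x.1 k x.2.2 x.2.1 *ᵥ C x.1 (k + b') x.2.2 x.2.1| else 0) ≤
      √EV * √Ew := by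
    intro o ho b' hb
    have h2 := aff_cs (fAR o N M.2.1 (Af o)) N (t, M.1, M.2.2) (fun _ _ => 1)
      (fun k x => R x.1 k x.2.2 x.2.1 *ᵥ C x.1 (k + b') x.2.2 x.2.1)
      (fun k x => wG c0 A b o b' k x)
    simp only [one_mul, one_pow] at h2
    refine le_trans (le_of_eq ?_) (h2.trans (mul_le_mul (Real.sqrt_le_sqrt (hEV o ho b' hb))
      (Real.sqrt_le_sqrt (hEw o ho b' hb)) (Real.sqrt_nonneg _) (Real.sqrt_nonneg _)))
    refine sum_congr rfl fun k _ => sum_congr rfl fun x _ => ?_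
    rw [dotProduct_comm]
  refine (sum_le_sum fun o ho => sum_le_sum (h1 o ho)).trans (le_of_eq ?_)
  rw [sum_const, sum_const, card_range, show (Icc (-6 : ℤ) 10).card = 17 by decide, nsmul_eq_mul,
    nsmul_eq_mul]
  push_cast
  ring

/-! ### The kernel as a mean of separated multipliers -/

/-- one average -/
theorem res_mean (k : ℕ) (x : ℤ) (f : ℤ → ℝ) :
    ∑ v ∈ range (2 ^ k), f (v : ℤ) =
      ∑ s ∈ range (2 ^ k), f (-x - s - 2 ^ k * ix k (-x - s)) := by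
  have h := H795.sum_res k k le_rfl (-x) f
  rw [Nat.sub_self, pow_zero, one_mul] at h
  rw [← h]
  refine sum_congr rfl fun s _ => ?_
  congr 1
  unfold ix
  rw [Int.emod_def]

/-- **The kernel is a mean of multipliers of the shifted cells.** -/
theorem KK_mean (k : ℕ) (c x1 x2 x3 : ℤ) : H795.KK k (c - x1 - x2 - x3) =
    ∑ s ∈ range (2 ^ k) ×ˢ range (2 ^ k) ×ˢ range (2 ^ k), ((8 : ℝ) ^ k)⁻¹ * (((2 : ℝ) ^ k)⁻¹ *
      H795.V3 (ix k (c + s.1 + s.2.1 + s.2.2) + ix k (-x1 - s.1) + ix k (-x2 - s.2.1) +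
        ix k (-x3 - s.2.2))) := by
  rw [H795.KK_eq]
  rw [sum_product]
  simp only [sum_product]
  rw [res_mean k x1 fun v1 => ((2 : ℝ) ^ k)⁻¹ * ∑ v2 ∈ range (2 ^ k),
    ((2 : ℝ) ^ k)⁻¹ * ∑ v3 ∈ range (2 ^ k), ((2 : ℝ) ^ k)⁻¹ *
      H795.V3 (ix k (c - x1 - x2 - x3 - v1 - v2 - v3)), mul_sum]
  refine sum_congr rfl fun s1 _ => ?_
  rw [res_mean k x2 fun v2 => ((2 : ℝ) ^ k)⁻¹ * ∑ v3 ∈ range (2 ^ k), ((2 : ℝ) ^ k)⁻¹ *
      H795.V3 (ix k (c - x1 - x2 - x3 - (-x1 - s1 - 2 ^ k * ix k (-x1 - s1)) - v2 - v3)),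
    mul_sum, mul_sum]
  refine sum_congr rfl fun s2 _ => ?_
  rw [res_mean k x3 fun v3 => ((2 : ℝ) ^ k)⁻¹ *
      H795.V3 (ix k (c - x1 - x2 - x3 - (-x1 - s1 - 2 ^ k * ix k (-x1 - s1)) -
        (-x2 - s2 - 2 ^ k * ix k (-x2 - s2)) - v3)), mul_sum, mul_sum, mul_sum]
  refine sum_congr rfl fun s3 _ => ?_
  have e : ix k (c - x1 - x2 - x3 - (-x1 - s1 - 2 ^ k * ix k (-x1 - s1)) -
        (-x2 - s2 - 2 ^ k * ix k (-x2 - s2)) - (-x3 - s3 - 2 ^ k * ix k (-x3 - s3))) =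
      ix k (c + s1 + s2 + s3) + ix k (-x1 - s1) + ix k (-x2 - s2) + ix k (-x3 - s3) := by
    rw [add_assoc, add_assoc, ← H795.ix_add_mul]
    congr 1
    ring
  rw [e, show (8 : ℝ) ^ k = 2 ^ k * 2 ^ k * 2 ^ k by rw [← mul_pow, ← mul_pow]; norm_num]
  simp only [mul_inv]
  ring

/-- an interval of length `2 ^ k` meets two cells -/
theorem ix_two_cells {k : ℕ} {m s y : ℤ} (hy : y ∈ iv k m) :
    ix k (-y - s) = ix k (-(2 ^ k * m + 2 ^ k - 1) - s) ∨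
      ix k (-y - s) = ix k (-(2 ^ k * m + 2 ^ k - 1) - s) + 1 := by
  have hp : (0 : ℤ) < 2 ^ k := by positivity
  have h0 : -y - s ∈ iv k (ix k (-y - s)) := mem_iv.2 rfl
  have h1 : -(2 ^ k * m + 2 ^ k - 1) - s ∈ iv k (ix k (-(2 ^ k * m + 2 ^ k - 1) - s)) :=
    mem_iv.2 rfl
  generalize ix k (-y - s) = q at *
  generalize ix k (-(2 ^ k * m + 2 ^ k - 1) - s) = r at *
  unfold PL.iv at hy h0 h1
  rw [mem_Ico] at hy h0 h1
  generalize (2 : ℤ) ^ k = D at *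
  have a1 : r ≤ q := by
    by_contra hc
    have : q + 1 ≤ r := by omega
    nlinarith
  have a2 : q ≤ r + 1 := by
    by_contra hc
    have : r + 2 ≤ q := by omega
    nlinarith
  omega

/-- the cap of `A` with a separated multiplier -/
theorem cap_mul {A : ℤ → ℤ → ℝ} {k : ℕ} {c : ℝ} (hc : 0 ≤ c) {m2 m3 : ℤ}
    (hA : ∀ w : ℤ → ℝ, ∑ z ∈ iv k m3, (∑ y ∈ iv k m2, A z y * w y) ^ 2 ≤
      c * 4 ^ k * ∑ y ∈ iv k m2, w y ^ 2) (f : ℤ → ℤ → ℝ) (hf : ∀ a y, |f a y| ≤ 4 / 3) (s3 : ℤ)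
    (w : ℤ → ℝ) :
    ∑ z ∈ iv k m3, (∑ y ∈ iv k m2, f (ix k (-z - s3)) y * A z y * w y) ^ 2 ≤
      4 * (c * 4 ^ k * ∑ y ∈ iv k m2, w y ^ 2) := by
  set r : ℤ := ix k (-(2 ^ k * m3 + 2 ^ k - 1) - s3) with hr
  have h1 : ∀ z ∈ iv k m3, (∑ y ∈ iv k m2, f (ix k (-z - s3)) y * A z y * w y) ^ 2 ≤
      (∑ y ∈ iv k m2, A z y * (f r y * w y)) ^ 2 +
        (∑ y ∈ iv k m2, A z y * (f (r + 1) y * w y)) ^ 2 := by
    intro z hz
    have e : ∀ a : ℤ, ∑ y ∈ iv k m2, f a y * A z y * w y =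
        ∑ y ∈ iv k m2, A z y * (f a y * w y) := fun a =>
      sum_congr rfl fun y _ => by ring
    rcases ix_two_cells (s := s3) hz with h | h
    · rw [h, ← hr, e]
      nlinarith [sq_nonneg (∑ y ∈ iv k m2, A z y * (f (r + 1) y * w y))]
    · rw [h, ← hr, e]
      nlinarith [sq_nonneg (∑ y ∈ iv k m2, A z y * (f r y * w y))]
  refine (sum_le_sum h1).trans ?_
  rw [sum_add_distrib]
  have h2 : ∀ a : ℤ, ∑ z ∈ iv k m3, (∑ y ∈ iv k m2, A z y * (f a y * w y)) ^ 2 ≤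
      c * 4 ^ k * (16 / 9 * ∑ y ∈ iv k m2, w y ^ 2) := by
    intro a
    refine (hA fun y => f a y * w y).trans (mul_le_mul_of_nonneg_left ?_ (by positivity))
    rw [mul_sum]
    refine sum_le_sum fun y _ => ?_
    rw [mul_pow]
    have h3 : f a y ^ 2 ≤ 16 / 9 := by
      have := hf a y
      have h4 := sq_abs (f a y)
      have h5 := abs_nonneg (f a y)
      nlinarith
    exact mul_le_mul_of_nonneg_right h3 (sq_nonneg _)
  have h3 := h2 r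
  have h4 := h2 (r + 1)
  have h5 : 0 ≤ c * 4 ^ k * ∑ y ∈ iv k m2, w y ^ 2 :=
    mul_nonneg (by positivity) (sum_nonneg fun _ _ => sq_nonneg _)
  nlinarith

/-- **the cap of `A` with the kernel** -/
theorem cap_KK {A : ℤ → ℤ → ℝ} {k : ℕ} {c : ℝ} (hc : 0 ≤ c) {m2 m3 : ℤ}
    (hA : ∀ w : ℤ → ℝ, ∑ z ∈ iv k m3, (∑ y ∈ iv k m2, A z y * w y) ^ 2 ≤
      c * 4 ^ k * ∑ y ∈ iv k m2, w y ^ 2) (c1 x : ℤ) (w : ℤ → ℝ) :
    ∑ z ∈ iv k m3, (∑ y ∈ iv k m2, H795.KK k (c1 - x - y - z) * A z y * w y) ^ 2 ≤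
      4 * (c * ∑ y ∈ iv k m2, w y ^ 2) := by
  set S : Finset (ℕ × ℕ × ℕ) := range (2 ^ k) ×ˢ range (2 ^ k) ×ˢ range (2 ^ k) with hS
  have hSc : (S.card : ℝ) = 8 ^ k := by
    rw [hS, card_product, card_product, card_range]
    push_cast
    rw [← mul_pow, ← mul_pow]
    norm_num
  set F : (ℕ × ℕ × ℕ) → ℤ → ℝ := fun s z => ∑ y ∈ iv k m2,
    H795.V3 (ix k (c1 + s.1 + s.2.1 + s.2.2) + ix k (-x - s.1) + ix k (-y - s.2.1) +
      ix k (-z - s.2.2)) * A z y * w y with hF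
  have e1 : ∀ z, ∑ y ∈ iv k m2, H795.KK k (c1 - x - y - z) * A z y * w y =
      ∑ s ∈ S, ((8 : ℝ) ^ k)⁻¹ * (((2 : ℝ) ^ k)⁻¹ * F s z) := by
    intro z
    simp only [hF, mul_sum]
    rw [sum_comm]
    refine sum_congr rfl fun y _ => ?_
    rw [KK_mean, sum_mul, sum_mul]
    refine sum_congr rfl fun s _ => ?_
    ring
  have e2 : ∀ z, (∑ y ∈ iv k m2, H795.KK k (c1 - x - y - z) * A z y * w y) ^ 2 ≤
      ((8 : ℝ) ^ k)⁻¹ * ∑ s ∈ S, (((2 : ℝ) ^ k)⁻¹ * F s z) ^ 2 := by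
    intro z
    rw [e1, ← mul_sum, mul_pow]
    have h := sq_sum_le_card_mul_sum_sq (s := S) (f := fun s => ((2 : ℝ) ^ k)⁻¹ * F s z)
    rw [hSc] at h
    have h8 : (0 : ℝ) < 8 ^ k := by positivity
    calc ((8 : ℝ) ^ k)⁻¹ ^ 2 * (∑ s ∈ S, ((2 : ℝ) ^ k)⁻¹ * F s z) ^ 2
        ≤ ((8 : ℝ) ^ k)⁻¹ ^ 2 * (8 ^ k * ∑ s ∈ S, (((2 : ℝ) ^ k)⁻¹ * F s z) ^ 2) :=
          mul_le_mul_of_nonneg_left h (by positivity)
      _ = ((8 : ℝ) ^ k)⁻¹ * ∑ s ∈ S, (((2 : ℝ) ^ k)⁻¹ * F s z) ^ 2 := by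
          field_simp
  refine (sum_le_sum fun z _ => e2 z).trans ?_
  rw [← mul_sum, sum_comm]
  have e3 : ∀ s ∈ S, ∑ z ∈ iv k m3, (((2 : ℝ) ^ k)⁻¹ * F s z) ^ 2 ≤
      4 * (c * ∑ y ∈ iv k m2, w y ^ 2) := by
    intro s _
    have h := cap_mul hc hA (fun a y => H795.V3 (ix k (c1 + s.1 + s.2.1 + s.2.2) +
      ix k (-x - s.1) + ix k (-y - s.2.1) + a)) (fun a y => H795.abs_V3 _) s.2.2 w
    simp only [mul_pow]
    rw [← mul_sum]
    have h4 : (4 : ℝ) ^ k = 2 ^ k * 2 ^ k := by rw [← mul_pow]; norm_num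
    calc ((2 : ℝ) ^ k)⁻¹ ^ 2 * ∑ z ∈ iv k m3, F s z ^ 2
        ≤ ((2 : ℝ) ^ k)⁻¹ ^ 2 * (4 * (c * 4 ^ k * ∑ y ∈ iv k m2, w y ^ 2)) :=
          mul_le_mul_of_nonneg_left h (by positivity)
      _ = 4 * (c * ∑ y ∈ iv k m2, w y ^ 2) := by
          rw [h4]
          have h3 : (2 : ℝ) ^ k ≠ 0 := by positivity
          field_simp
  calc ((8 : ℝ) ^ k)⁻¹ * ∑ s ∈ S, ∑ z ∈ iv k m3, (((2 : ℝ) ^ k)⁻¹ * F s z) ^ 2
      ≤ ((8 : ℝ) ^ k)⁻¹ * ∑ _s ∈ S, 4 * (c * ∑ y ∈ iv k m2, w y ^ 2) :=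
        mul_le_mul_of_nonneg_left (sum_le_sum e3) (by positivity)
    _ = 4 * (c * ∑ y ∈ iv k m2, w y ^ 2) := by
        rw [sum_const, nsmul_eq_mul, hSc]
        have h8 : (8 : ℝ) ^ k ≠ 0 := by positivity
        field_simp

/-- **the energy of the vectors at one node from the cap of `A`** -/
theorem wG_cell {A : ℤ → ℤ → ℝ} (b : ℤ → ℤ → κ → ℝ) {k : ℕ} {c : ℝ} (hc : 0 ≤ c) {m1 m2 m3 : ℤ}
    (hA : ∀ w : ℤ → ℝ, ∑ z ∈ iv k m3, (∑ y ∈ iv k m2, A z y * w y) ^ 2 ≤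
      c * 4 ^ k * ∑ y ∈ iv k m2, w y ^ 2) (c1 : ℤ) :
    ∑ x1 ∈ iv k m1, ∑ x3 ∈ iv k m3,
      (∑ y ∈ iv k m2, (H795.KK k (c1 - x1 - y - x3) * A x3 y) • b x1 y) ⬝ᵥ
      (∑ y ∈ iv k m2, (H795.KK k (c1 - x1 - y - x3) * A x3 y) • b x1 y) ≤
      4 * c * ∑ x1 ∈ iv k m1, ∑ y ∈ iv k m2, b x1 y ⬝ᵥ b x1 y := by
  rw [mul_sum]
  refine sum_le_sum fun x1 _ => ?_
  have e1 : ∀ x3 ∈ iv k m3, (∑ y ∈ iv k m2, (H795.KK k (c1 - x1 - y - x3) * A x3 y) • b x1 y) ⬝ᵥ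
      (∑ y ∈ iv k m2, (H795.KK k (c1 - x1 - y - x3) * A x3 y) • b x1 y) =
      ∑ i, (∑ y ∈ iv k m2, H795.KK k (c1 - x1 - y - x3) * A x3 y * b x1 y i) ^ 2 := by
    intro x3 _
    unfold dotProduct
    refine sum_congr rfl fun i _ => ?_
    have : (∑ y ∈ iv k m2, (H795.KK k (c1 - x1 - y - x3) * A x3 y) • b x1 y) i =
        ∑ y ∈ iv k m2, H795.KK k (c1 - x1 - y - x3) * A x3 y * b x1 y i := by
      rw [Finset.sum_apply]
      rfl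
    rw [this]
    ring
  rw [sum_congr rfl e1, sum_comm]
  have e2 : ∑ y ∈ iv k m2, b x1 y ⬝ᵥ b x1 y = ∑ i, ∑ y ∈ iv k m2, b x1 y i ^ 2 := by
    unfold dotProduct
    rw [sum_comm]
    exact sum_congr rfl fun i _ => sum_congr rfl fun y _ => by ring
  rw [e2, mul_sum]
  refine sum_le_sum fun i _ => ?_
  have h := cap_KK hc hA c1 x1 fun y => b x1 y i
  linarith

/-- **the energy of the vectors over the affected nodes**: `c` the cap of `A`, `β` the mass of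
`b` -/
theorem wG_aff {o : ℤ} {N : ℕ} (M : Pt) (t : ℤ) (c0 : ℤ → ℤ) {Af : ℕ → Pt → Prop} {P : ℝ}
    (hP : GPack Af N P) {A : ℤ → ℕ → ℤ → ℤ → ℝ} {b : ℤ → ℕ → ℤ → ℤ → κ → ℝ} {b' : ℕ} {c β : ℝ}
    (hc : 0 ≤ c) (hβ : 0 ≤ β)
    (hA : ∀ k < N, ∀ x ∈ cb N (t, M.1, M.2.2), fAR o N M.2.1 Af k (cx k x) → ∀ w : ℤ → ℝ,
      ∑ z ∈ iv k (ix k x.2.2), (∑ y ∈ iv k (tc o k x), A x.1 (k + b') z y * w y) ^ 2 ≤
        c * 4 ^ k * ∑ y ∈ iv k (tc o k x), w y ^ 2)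
    (hb : ∀ k < N, ∀ x ∈ cb N (t, M.1, M.2.2), fAR o N M.2.1 Af k (cx k x) →
      ∑ x0 ∈ iv k (ix k x.1), ∑ x1 ∈ iv k (ix k x.2.1), ∑ y ∈ iv k (tc o k x),
        b x0 (k + b') x1 y ⬝ᵥ b x0 (k + b') x1 y ≤ β * 8 ^ k) :
    ∑ k ∈ range (N + 1), ∑ x ∈ cb N (t, M.1, M.2.2),
      (if fAR o N M.2.1 Af k (cx k x) then
        wG c0 A b o b' k x ⬝ᵥ wG c0 A b o b' k x else 0) ≤ 4 * c * β * (P * 8 ^ N) := by
  have hp : ∑ x ∈ cb N (t, M.1, M.2.2), ∑ k ∈ range (N + 1),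
      (if fAR o N M.2.1 Af k (cx k x) then (1 : ℝ) else 0) ≤ P * 8 ^ N :=
    (hP.mono (A' := fAR o N M.2.1 Af) fun _ _ h => h.1) N le_rfl (t, M.1, M.2.2)
  refine wV_sum hp (mul_nonneg (by positivity) hβ) (fun k x =>
    wG c0 A b o b' k x ⬝ᵥ wG c0 A b o b' k x) ?_
  intro k hk x hx ha
  have hkN : k < N := ha.2.2
  have h2 : ∀ y ∈ cb k (cx k x), y ∈ cb N (t, M.1, M.2.2) := by
    intro y hy
    rw [mem_cb] at hx hy ⊢
    rw [cx_le hk hy]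
    exact hx
  have e1 : ∑ y ∈ cb k (cx k x), wG c0 A b o b' k y ⬝ᵥ wG c0 A b o b' k y =
      ∑ x0 ∈ iv k (ix k x.1), ∑ x1 ∈ iv k (ix k x.2.1), ∑ x3 ∈ iv k (ix k x.2.2),
        (∑ y ∈ iv k (tc o k x), (H795.KK k (c0 x0 - x1 - y - x3) * A x0 (k + b') x3 y) •
          b x0 (k + b') x1 y) ⬝ᵥ
        (∑ y ∈ iv k (tc o k x), (H795.KK k (c0 x0 - x1 - y - x3) * A x0 (k + b') x3 y) •
          b x0 (k + b') x1 y) := by
    unfold PL.cb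
    rw [sum_product]
    simp only [sum_product]
    refine sum_congr rfl fun x0 h0 => sum_congr rfl fun x1 h1 => sum_congr rfl fun x3 h3 => ?_
    have e : tc o k (x0, x1, x3) = tc o k x := by
      unfold tc
      rw [mem_iv] at h0 h1 h3
      simp only
      rw [h0, h1, h3]
    unfold wG
    simp only
    rw [e]
  rw [e1]
  have h3 : ∀ x0 ∈ iv k (ix k x.1), ∑ x1 ∈ iv k (ix k x.2.1), ∑ x3 ∈ iv k (ix k x.2.2),
        (∑ y ∈ iv k (tc o k x), (H795.KK k (c0 x0 - x1 - y - x3) * A x0 (k + b') x3 y) •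
          b x0 (k + b') x1 y) ⬝ᵥ
        (∑ y ∈ iv k (tc o k x), (H795.KK k (c0 x0 - x1 - y - x3) * A x0 (k + b') x3 y) •
          b x0 (k + b') x1 y) ≤
      4 * c * ∑ x1 ∈ iv k (ix k x.2.1), ∑ y ∈ iv k (tc o k x),
        b x0 (k + b') x1 y ⬝ᵥ b x0 (k + b') x1 y := by
    intro x0 h0
    refine wG_cell (b x0 (k + b')) hc ?_ (c0 x0)
    have hcx : cx k (x0, x.2.1, x.2.2) = cx k x := by
      unfold PL.cx
      rw [mem_iv.1 h0]
    have hy := h2 (x0, x.2.1, x.2.2) (mem_cb.2 hcx)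
    have h4 := hA k hkN (x0, x.2.1, x.2.2) hy (by rw [hcx]; exact ha)
    have e : tc o k (x0, x.2.1, x.2.2) = tc o k x := by
      unfold tc
      simp only
      rw [mem_iv.1 h0]
    rw [e] at h4
    exact h4
  refine (sum_le_sum h3).trans ?_
  rw [← mul_sum]
  calc 4 * c * ∑ x0 ∈ iv k (ix k x.1), ∑ x1 ∈ iv k (ix k x.2.1), ∑ y ∈ iv k (tc o k x),
        b x0 (k + b') x1 y ⬝ᵥ b x0 (k + b') x1 y ≤ 4 * c * (β * 8 ^ k) :=
        mul_le_mul_of_nonneg_left (hb k hkN x hx ha) (by positivity)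
    _ = 4 * c * β * 8 ^ k := by ring

/-- **The births of the functions with the kernels `kp`, the whole leaf.** -/
theorem births_kp {N : ℕ} (M : Pt) (t : ℤ) {c0 : ℤ → ℤ}
    (hc0 : ∀ k < N, ∀ x0, -3 ≤ ix k (c0 x0) + ix k x0 ∧ ix k (c0 x0) + ix k x0 ≤ 3)
    {Af : ℤ → ℕ → Pt → Prop} {P : ℝ} (hP : ∀ o ∈ Icc (-6 : ℤ) 10, GPack (Af o) N P)
    {A : ℤ → ℕ → ℤ → ℤ → ℝ} {b C : ℤ → ℕ → ℤ → ℤ → κ → ℝ}
    (R : ℤ → ℕ → ℤ → ℤ → Matrix κ κ ℝ) (h : ∀ o ∈ Icc (-6 : ℤ) 10, FAgr o N (Af o) A b C)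
    {EV c β : ℝ} (hc : 0 ≤ c) (hβ : 0 ≤ β)
    (hEV : ∀ o ∈ Icc (-6 : ℤ) 10, ∀ b' ∈ range 2, ∑ k ∈ range (N + 1),
      ∑ x ∈ cb N (t, M.1, M.2.2), (if fAR o N M.2.1 (Af o) k (cx k x) then
        (R x.1 k x.2.2 x.2.1 *ᵥ C x.1 (k + b') x.2.2 x.2.1) ⬝ᵥ
        (R x.1 k x.2.2 x.2.1 *ᵥ C x.1 (k + b') x.2.2 x.2.1) else 0) ≤ EV)
    (hA : ∀ o ∈ Icc (-6 : ℤ) 10, ∀ b' ∈ range 2, ∀ k < N, ∀ x ∈ cb N (t, M.1, M.2.2),
      fAR o N M.2.1 (Af o) k (cx k x) → ∀ w : ℤ → ℝ,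
      ∑ z ∈ iv k (ix k x.2.2), (∑ y ∈ iv k (tc o k x), A x.1 (k + b') z y * w y) ^ 2 ≤
        c * 4 ^ k * ∑ y ∈ iv k (tc o k x), w y ^ 2)
    (hb : ∀ o ∈ Icc (-6 : ℤ) 10, ∀ b' ∈ range 2, ∀ k < N, ∀ x ∈ cb N (t, M.1, M.2.2),
      fAR o N M.2.1 (Af o) k (cx k x) →
      ∑ x0 ∈ iv k (ix k x.1), ∑ x1 ∈ iv k (ix k x.2.1), ∑ y ∈ iv k (tc o k x),
        b x0 (k + b') x1 y ⬝ᵥ b x0 (k + b') x1 y ≤ β * 8 ^ k) :
    ∑ x0 ∈ iv N t, ∑ k ∈ range N, |In N M (H795.kp (c0 x0) k) (fun y =>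
        H677.GA (A x0) (b x0) (C x0) (R x0) k k y -
          H677.GA (A x0) (b x0) (C x0) (R x0) k (k + 1) y)| ≤
      34 * (√EV * √(4 * c * β * (P * 8 ^ N))) :=
  fam_births_k M t hc0 R h hEV fun o ho b' hb' =>
    wG_aff M t c0 (hP o ho) hc hβ (hA o ho b' hb') (hb o ho b' hb')

/-- the base point `- x0` of the kernels -/
theorem base_neg {k : ℕ} (a x0 : ℤ) (ha : -3 ≤ a ∧ a ≤ 3) :
    -3 ≤ ix k (a - x0) + ix k x0 ∧ ix k (a - x0) + ix k x0 ≤ 3 := by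
  have hp : (1 : ℤ) ≤ 2 ^ k := one_le_pow₀ (by norm_num)
  have h0 : a - x0 ∈ iv k (ix k (a - x0)) := mem_iv.2 rfl
  have h1 : x0 ∈ iv k (ix k x0) := mem_iv.2 rfl
  generalize ix k (a - x0) = q at *
  generalize ix k x0 = r at *
  unfold PL.iv at h0 h1
  rw [mem_Ico] at h0 h1
  generalize (2 : ℤ) ^ k = D at *
  constructor
  · by_contra hc
    have : q + r ≤ -4 := by omega
    nlinarith
  · by_contra hc
    have : 4 ≤ q + r := by omega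
    nlinarith

end Births

end

end Vale.Agent.P141.H744
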