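import Vale.Agent.P141.PL.H588.Defs
import Vale.Agent.P141.PL.H804.Glue

/-!
# P141: packing of the plane image of a family of squares

`PkS N Q B` : the squares `Q k r s` (scale `k`) have packing `B` in every square of scale at most
`N` (this is `BSl.pack` at fixed `x0`).

* `imgA J c Q`, `imgB J c Q` : the squares `(r, s)` over which the plane `r + q + s = c k + d`,
  `|d| ≤ J`, has a square `(q, s)`, respectively `(r, q)`, of the family;
* `PkS.img_A`, `PkS.img_B` : they have packing `(2 J + 1) (2 (D + J) + 4) B`;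
* `near_Pl` : planes with `0 ≤ c k - 2 c (k + 1) ≤ 3` are near (`D = 3`);
* `nodes_A`, `nodes_B` : sums over the nodes of a plane with a square of the family.
-/

namespace Vale.Agent.P141.H744

open Finset
open Vale.Agent.P141.PL (Pt iv ix mem_iv ix_ix card_iv)
open Vale.Agent.P141.PL.H588 (Pl)
open Vale.Agent.P141.PL.H804 (bx3 sum_bx3)

noncomputable section

open scoped Classical

/-- packing of squares in every square -/
def PkS (N : ℕ) (Q : ℕ → ℤ → ℤ → Prop) (B : ℝ) : Prop :=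
  ∀ K ≤ N, ∀ r s : ℤ, ∑ k ∈ range (K + 1), ∑ r' ∈ iv (K - k) r, ∑ s' ∈ iv (K - k) s,
    (if Q k r' s' then (4 : ℝ) ^ k else 0) ≤ B * 4 ^ K

/-- the plane image, second variable kept -/
def imgA (J : ℕ) (c : ℕ → ℤ) (Q : ℕ → ℤ → ℤ → Prop) (k : ℕ) (r s : ℤ) : Prop :=
  ∃ d ∈ Icc (-(J : ℤ)) J, Q k (c k + d - r - s) s

/-- the plane image, first variable kept -/
def imgB (J : ℕ) (c : ℕ → ℤ) (Q : ℕ → ℤ → ℤ → Prop) (k : ℕ) (r s : ℤ) : Prop :=
  ∃ d ∈ Icc (-(J : ℤ)) J, Q k r (c k + d - r - s)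

/-- near planes: `c k` is `2 ^ (K - k) c K` up to `D` cells of scale `K` -/
def Near (N : ℕ) (c : ℕ → ℤ) (D : ℕ) : Prop :=
  ∀ K ≤ N, ∀ k ≤ K, 2 ^ (K - k) * c K - D * 2 ^ (K - k) ≤ c k ∧
    c k ≤ 2 ^ (K - k) * c K + D * 2 ^ (K - k)

/-- the translated cells lie over `2 D + 2` cells -/
theorem cov_le (d : ℕ) (M E e : ℤ) (D : ℕ) (h1 : 2 ^ d * E - D * 2 ^ d ≤ e)
    (h2 : e ≤ 2 ^ d * E + D * 2 ^ d) (φ : ℤ → ℝ) (hφ : ∀ q, 0 ≤ φ q) :
    ∑ r ∈ iv d M, φ (e - r) ≤
      ∑ i ∈ range (2 * D + 2), ∑ q ∈ iv d (E - M - 1 - D + i), φ q := by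
  have hp : (0 : ℤ) < 2 ^ d := by positivity
  have e1 : ∑ r ∈ iv d M, φ (e - r) = ∑ q ∈ (iv d M).image (fun r => e - r), φ q := by
    rw [sum_image]
    intro a _ a' _ h
    simp only at h
    omega
  have e2 : ∑ i ∈ range (2 * D + 2), ∑ q ∈ iv d (E - M - 1 - D + i), φ q =
      ∑ q ∈ (range (2 * D + 2)).biUnion (fun i => iv d (E - M - 1 - D + (i : ℤ))), φ q := by
    rw [sum_biUnion]
    intro i _ j _ hij
    rw [Function.onFun, disjoint_left]
    intro q hq hq'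
    rw [mem_iv] at hq hq'
    apply hij
    omega
  rw [e1, e2]
  refine sum_le_sum_of_subset_of_nonneg ?_ fun q _ _ => hφ q
  intro q hq
  obtain ⟨r, hr, rfl⟩ := mem_image.1 hq
  unfold PL.iv at hr
  rw [mem_Ico] at hr
  have a1 : E - M - 1 - D ≤ ix d (e - r) := by
    unfold PL.ix
    rw [Int.le_ediv_iff_mul_le hp]
    have : (E - M - 1 - D) * 2 ^ d = 2 ^ d * E - D * 2 ^ d - 2 ^ d * M - 2 ^ d := by ring
    rw [this]
    linarith [hr.2]
  have a2 : ix d (e - r) < E - M + D + 1 := by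
    unfold PL.ix
    rw [Int.ediv_lt_iff_lt_mul hp]
    have : (E - M + D + 1) * 2 ^ d = 2 ^ d * E + D * 2 ^ d - 2 ^ d * M + 2 ^ d := by ring
    rw [this]
    linarith [hr.1]
  rw [mem_biUnion]
  refine ⟨(ix d (e - r) - (E - M - 1 - D)).toNat, ?_, ?_⟩
  · rw [mem_range]
    omega
  · rw [mem_iv]
    omega

theorem PkS.mono {N : ℕ} {Q Q' : ℕ → ℤ → ℤ → Prop} {B B' : ℝ} (h : PkS N Q B)
    (hQ : ∀ k ≤ N, ∀ r s, Q' k r s → Q k r s) (hB : B ≤ B') : PkS N Q' B' := by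
  intro K hK r s
  refine le_trans ?_ ((h K hK r s).trans (mul_le_mul_of_nonneg_right hB (by positivity)))
  refine sum_le_sum fun k hk => sum_le_sum fun r' _ => sum_le_sum fun s' _ => ?_
  rw [mem_range] at hk
  by_cases hq : Q' k r' s'
  · rw [if_pos hq, if_pos (hQ k (by omega) r' s' hq)]
  · rw [if_neg hq]
    split_ifs
    · positivity
    · exact le_rfl

theorem PkS.or {N : ℕ} {Q Q' : ℕ → ℤ → ℤ → Prop} {B B' : ℝ} (h : PkS N Q B)
    (h' : PkS N Q' B') : PkS N (fun k r s => Q k r s ∨ Q' k r s) (B + B') := by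
  intro K hK r s
  have key := add_le_add (h K hK r s) (h' K hK r s)
  rw [← add_mul] at key
  refine le_trans ?_ key
  rw [← sum_add_distrib]
  refine sum_le_sum fun k _ => ?_
  rw [← sum_add_distrib]
  refine sum_le_sum fun r' _ => ?_
  rw [← sum_add_distrib]
  refine sum_le_sum fun s' _ => ?_
  have h4 : (0 : ℝ) ≤ 4 ^ k := by positivity
  by_cases h1 : Q k r' s' <;> by_cases h2 : Q' k r' s' <;> simp [h1, h2]

theorem PkS.swap {N : ℕ} {Q : ℕ → ℤ → ℤ → Prop} {B : ℝ} (h : PkS N Q B) :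
    PkS N (fun k r s => Q k s r) B := by
  intro K hK r s
  refine le_trans (le_of_eq ?_) (h K hK s r)
  exact sum_congr rfl fun k _ => sum_comm

/-- a union of finitely many families -/
theorem PkS.ex {N : ℕ} {ι : Type} (I : Finset ι) {Q : ι → ℕ → ℤ → ℤ → Prop} {B : ℝ}
    (h : ∀ i ∈ I, PkS N (Q i) B) :
    PkS N (fun k r s => ∃ i ∈ I, Q i k r s) (I.card * B) := by
  intro K hK r s
  have key : ∑ i ∈ I, ∑ k ∈ range (K + 1), ∑ r' ∈ iv (K - k) r, ∑ s' ∈ iv (K - k) s,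
      (if Q i k r' s' then (4 : ℝ) ^ k else 0) ≤ ∑ _i ∈ I, B * 4 ^ K :=
    sum_le_sum fun i hi => h i hi K hK r s
  rw [sum_const, nsmul_eq_mul, ← mul_assoc] at key
  have e : ∑ i ∈ I, ∑ k ∈ range (K + 1), ∑ r' ∈ iv (K - k) r, ∑ s' ∈ iv (K - k) s,
      (if Q i k r' s' then (4 : ℝ) ^ k else 0) =
      ∑ k ∈ range (K + 1), ∑ r' ∈ iv (K - k) r, ∑ s' ∈ iv (K - k) s, ∑ i ∈ I,
        (if Q i k r' s' then (4 : ℝ) ^ k else 0) := by
    rw [sum_comm]
    refine sum_congr rfl fun k _ => ?_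
    rw [sum_comm]
    exact sum_congr rfl fun r' _ => sum_comm
  rw [e] at key
  refine le_trans (sum_le_sum fun k _ => sum_le_sum fun r' _ => sum_le_sum fun s' _ => ?_) key
  have h4 : (0 : ℝ) ≤ 4 ^ k := by positivity
  by_cases hq : ∃ i ∈ I, Q i k r' s'
  · rw [if_pos hq]
    obtain ⟨i, hi, hqi⟩ := hq
    refine le_trans (le_of_eq ?_) (single_le_sum (f := fun i =>
      if Q i k r' s' then (4 : ℝ) ^ k else 0) (fun j _ => ?_) hi)
    · rw [if_pos hqi]
    · split_ifs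
      · exact h4
      · exact le_rfl
  · rw [if_neg hq]
    exact sum_nonneg fun j _ => by split_ifs <;> [exact h4; exact le_rfl]

/-- **The plane image of a packed family is packed** (second variable kept, one plane). -/
theorem PkS.img1 {N : ℕ} {Q : ℕ → ℤ → ℤ → Prop} {B : ℝ} (h : PkS N Q B) {c : ℕ → ℤ} {D : ℕ}
    (hc : Near N c D) :
    PkS N (fun k r s => Q k (c k - r - s) s) ((2 * D + 4 : ℕ) * B) := by
  intro K hK R S
  have key : ∀ k ∈ range (K + 1), ∑ r' ∈ iv (K - k) R, ∑ s' ∈ iv (K - k) S,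
      (if Q k (c k - r' - s') s' then (4 : ℝ) ^ k else 0) ≤
      ∑ i ∈ range (2 * (D + 1) + 2),
        ∑ q ∈ iv (K - k) (c K - S - R - 1 - ((D + 1 : ℕ) : ℤ) + i), ∑ s' ∈ iv (K - k) S,
          (if Q k q s' then (4 : ℝ) ^ k else 0) := by
    intro k hk
    rw [mem_range] at hk
    have hk' : k ≤ K := by omega
    obtain ⟨n1, n2⟩ := hc K hK k hk'
    rw [sum_comm]
    have h1 : ∀ s' ∈ iv (K - k) S, ∑ r' ∈ iv (K - k) R,
        (if Q k (c k - r' - s') s' then (4 : ℝ) ^ k else 0) ≤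
        ∑ i ∈ range (2 * (D + 1) + 2),
          ∑ q ∈ iv (K - k) (c K - S - R - 1 - ((D + 1 : ℕ) : ℤ) + i),
            (if Q k q s' then (4 : ℝ) ^ k else 0) := by
      intro s' hs'
      unfold PL.iv at hs'
      rw [mem_Ico] at hs'
      refine le_trans (le_of_eq ?_) (cov_le (K - k) R (c K - S) (c k - s') (D + 1) ?_ ?_
        (fun q => if Q k q s' then (4 : ℝ) ^ k else 0) fun q => by
          split_ifs <;> [positivity; exact le_rfl])
      · refine sum_congr rfl fun r' _ => ?_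
        rw [show c k - s' - r' = c k - r' - s' by ring]
      · push_cast
        have : (2 : ℤ) ^ (K - k) * (c K - S) - (D + 1) * 2 ^ (K - k) =
          2 ^ (K - k) * c K - D * 2 ^ (K - k) - (2 ^ (K - k) * S + 2 ^ (K - k)) := by ring
        rw [this]
        linarith [hs'.2]
      · push_cast
        have : (2 : ℤ) ^ (K - k) * (c K - S) + (D + 1) * 2 ^ (K - k) =
          2 ^ (K - k) * c K + D * 2 ^ (K - k) - 2 ^ (K - k) * S + 2 ^ (K - k) := by ring
        rw [this]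
        have hp : (0 : ℤ) < 2 ^ (K - k) := by positivity
        linarith [hs'.1]
    refine (sum_le_sum h1).trans (le_of_eq ?_)
    rw [sum_comm]
    exact sum_congr rfl fun i _ => sum_comm
  refine (sum_le_sum key).trans ?_
  rw [sum_comm]
  refine (sum_le_sum fun i _ => h K hK _ _).trans (le_of_eq ?_)
  rw [sum_const, card_range, nsmul_eq_mul]
  push_cast
  ring

theorem Near.add {N : ℕ} {c : ℕ → ℤ} {D J : ℕ} (hc : Near N c D) {d : ℤ} (h1 : -(J : ℤ) ≤ d)
    (h2 : d ≤ J) : Near N (fun k => c k + d) (D + J) := by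
  intro K hK k hk
  obtain ⟨n1, n2⟩ := hc K hK k hk
  have hp : (1 : ℤ) ≤ 2 ^ (K - k) := by
    have : (0 : ℤ) < 2 ^ (K - k) := by positivity
    omega
  push_cast
  have e1 : (2 : ℤ) ^ (K - k) * (c K + d) - (D + J) * 2 ^ (K - k) =
      2 ^ (K - k) * c K - D * 2 ^ (K - k) - 2 ^ (K - k) * (J - d) := by ring
  have e2 : (2 : ℤ) ^ (K - k) * (c K + d) + (D + J) * 2 ^ (K - k) =
      2 ^ (K - k) * c K + D * 2 ^ (K - k) + 2 ^ (K - k) * (J + d) := by ring
  constructor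
  · rw [e1]
    have : (J : ℤ) - d ≤ 2 ^ (K - k) * (J - d) := by nlinarith
    nlinarith
  · rw [e2]
    have : (J : ℤ) + d ≤ 2 ^ (K - k) * (J + d) := by nlinarith
    nlinarith

/-- **The plane image, second variable kept.** -/
theorem PkS.img_A {N : ℕ} {Q : ℕ → ℤ → ℤ → Prop} {B : ℝ} (h : PkS N Q B) {c : ℕ → ℤ}
    {D : ℕ} (hc : Near N c D) (J : ℕ) :
    PkS N (imgA J c Q) (((2 * J + 1 : ℕ) : ℝ) * ((2 * (D + J) + 4 : ℕ) * B)) := by
  have h1 := PkS.ex (Icc (-(J : ℤ)) J) (Q := fun d k r s => Q k (c k + d - r - s) s)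
    (B := (2 * (D + J) + 4 : ℕ) * B) (fun d hd => by
      rw [mem_Icc] at hd
      exact h.img1 (hc.add hd.1 hd.2))
  have e : (Icc (-(J : ℤ)) J).card = 2 * J + 1 := by
    rw [Int.card_Icc]
    omega
  rw [e] at h1
  exact h1

/-- **The plane image, first variable kept.** -/
theorem PkS.img_B {N : ℕ} {Q : ℕ → ℤ → ℤ → Prop} {B : ℝ} (h : PkS N Q B) {c : ℕ → ℤ}
    {D : ℕ} (hc : Near N c D) (J : ℕ) :
    PkS N (imgB J c Q) (((2 * J + 1 : ℕ) : ℝ) * ((2 * (D + J) + 4 : ℕ) * B)) := by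
  refine ((h.swap.img_A hc J).swap).mono (fun k _ r s hq => ?_) le_rfl
  obtain ⟨d, hd, hq⟩ := hq
  refine ⟨d, hd, ?_⟩
  show Q k r (c k + d - s - r)
  rw [show c k + d - s - r = c k + d - r - s by ring]
  exact hq

/-- the planes of the nodes are near -/
theorem near_Pl {c : ℕ → ℤ} (hc : Pl c) (N : ℕ) : Near N c 3 := by
  have key : ∀ d k : ℕ, 0 ≤ c k - 2 ^ d * c (k + d) ∧ c k - 2 ^ d * c (k + d) ≤ 3 * (2 ^ d - 1) := by
    intro d
    induction d with
    | zero => intro k; simp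
    | succ d ih =>
      intro k
      obtain ⟨i1, i2⟩ := ih k
      obtain ⟨j1, j2⟩ := hc (k + d)
      have hp : (1 : ℤ) ≤ 2 ^ d := by
        have : (0 : ℤ) < 2 ^ d := by positivity
        omega
      rw [← add_assoc]
      have e1 : c k - 2 ^ (d + 1) * c (k + d + 1) =
          (c k - 2 ^ d * c (k + d)) + 2 ^ d * (c (k + d) - 2 * c (k + d + 1)) := by ring
      rw [e1]
      constructor
      · nlinarith
      · have e2 : (3 : ℤ) * (2 ^ (d + 1) - 1) = 3 * (2 ^ d - 1) + 2 ^ d * 3 := by ring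
        rw [e2]
        nlinarith
  intro K _ k hk
  have h := key (K - k) k
  rw [Nat.add_sub_cancel' hk] at h
  have hp : (0 : ℤ) < 2 ^ (K - k) := by positivity
  constructor <;> push_cast <;> linarith [h.1, h.2]

/-- the planes `o - 2 - x0 / 2 ^ k` -/
theorem Pl_o {o : ℤ} (ho : o = 1 ∨ o = -1) (x0 : ℤ) : Pl fun k => o - 2 - ix k x0 := by
  intro k
  have h : ix (k + 1) x0 = ix 1 (ix k x0) := by rw [ix_ix]
  have h2 : ix 1 (ix k x0) = ix k x0 / 2 := by unfold PL.ix; norm_num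
  simp only
  rw [h, h2]
  rcases ho with rfl | rfl <;> constructor <;> omega

/-- the planes of a shifted grid -/
theorem Pl_y (y : ℤ) {j : ℤ} (h0 : 0 ≤ j) (h2 : j ≤ 2) : Pl fun k => ix k y - j := by
  intro k
  have h : ix (k + 1) y = ix 1 (ix k y) := by rw [ix_ix]
  have h2 : ix 1 (ix k y) = ix k y / 2 := by unfold PL.ix; norm_num
  simp only
  rw [h, h2]
  constructor <;> omega

/-- **Nodes of a plane with a square of the family, second and third variable**: the sum is over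
the image. -/
theorem nodes_A (N : ℕ) (R : Pt) (k : ℕ) (c : ℕ → ℤ) (J : ℕ) {d : ℤ} (h1 : -(J : ℤ) ≤ d)
    (h2 : d ≤ J) (Q : ℕ → ℤ → ℤ → Prop) (g : ℤ → ℤ → ℝ) (hg : ∀ r s, 0 ≤ g r s) :
    ∑ m ∈ bx3 N R k (c k + d), (if Q k m.2.1 m.2.2 then g m.1 m.2.2 else 0) ≤
      ∑ r ∈ iv (N - k) R.1, ∑ s ∈ iv (N - k) R.2.2, (if imgA J c Q k r s then g r s else 0) := by
  rw [sum_bx3]
  refine sum_le_sum fun r _ => ?_
  rw [sum_comm]
  refine sum_le_sum fun s _ => ?_
  have hs : ∑ m2 ∈ iv (N - k) R.2.1, (if r + m2 + s = c k + d then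
      (if Q k m2 s then g r s else 0) else 0) ≤ ∑ m2 ∈ {c k + d - r - s},
        (if Q k m2 s then g r s else 0) := by
    rw [← sum_filter]
    refine sum_le_sum_of_subset_of_nonneg ?_ fun m2 _ _ => ?_
    · intro m2 hm
      rw [mem_filter] at hm
      rw [mem_singleton]
      omega
    · split_ifs
      · exact hg r s
      · exact le_rfl
  refine hs.trans ?_
  rw [sum_singleton]
  by_cases hq : Q k (c k + d - r - s) s
  · have : imgA J c Q k r s := ⟨d, mem_Icc.2 ⟨h1, h2⟩, hq⟩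
    rw [if_pos hq, if_pos this]
  · rw [if_neg hq]
    split_ifs
    · exact hg r s
    · exact le_rfl

/-- **Nodes of a plane with a square of the family, first and second variable.** -/
theorem nodes_B (N : ℕ) (R : Pt) (k : ℕ) (c : ℕ → ℤ) (J : ℕ) {d : ℤ} (h1 : -(J : ℤ) ≤ d)
    (h2 : d ≤ J) (Q : ℕ → ℤ → ℤ → Prop) (g : ℤ → ℤ → ℝ) (hg : ∀ r s, 0 ≤ g r s) :
    ∑ m ∈ bx3 N R k (c k + d), (if Q k m.1 m.2.1 then g m.1 m.2.2 else 0) ≤
      ∑ r ∈ iv (N - k) R.1, ∑ s ∈ iv (N - k) R.2.2, (if imgB J c Q k r s then g r s else 0) := by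
  rw [sum_bx3]
  refine sum_le_sum fun r _ => ?_
  rw [sum_comm]
  refine sum_le_sum fun s _ => ?_
  have hs : ∑ m2 ∈ iv (N - k) R.2.1, (if r + m2 + s = c k + d then
      (if Q k r m2 then g r s else 0) else 0) ≤ ∑ m2 ∈ {c k + d - r - s},
        (if Q k r m2 then g r s else 0) := by
    rw [← sum_filter]
    refine sum_le_sum_of_subset_of_nonneg ?_ fun m2 _ _ => ?_
    · intro m2 hm
      rw [mem_filter] at hm
      rw [mem_singleton]
      omega
    · split_ifs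
      · exact hg r s
      · exact le_rfl
  refine hs.trans ?_
  rw [sum_singleton]
  by_cases hq : Q k r (c k + d - r - s)
  · have : imgB J c Q k r s := ⟨d, mem_Icc.2 ⟨h1, h2⟩, hq⟩
    rw [if_pos hq, if_pos this]
  · rw [if_neg hq]
    split_ifs
    · exact hg r s
    · exact le_rfl

end

end Vale.Agent.P141.H744
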